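import Vale.Agent.Lib.P322.KEY
import Vale.Agent.Lib.P322.Bellman2

open CK322

namespace Vale.Agent.Results.P322.A0_full

/-- The Courtade-Kumar conjecture: for uniform `X` on the cube and `Y` the output of `n` independent
binary symmetric channels with crossover `ε`, every Boolean function `f` (balanced or not) has
`I(f(X);Y) ≤ 1 - h₂(ε)` in bits, for every `ε` in `[0,1/2]`. -/
theorem result {n : ℕ} (f : (Fin n → Bool) → Bool) {ε : ℝ} (h0 : 0 ≤ ε) (h1 : ε ≤ 1 / 2) :
    mutualInfoBits f ε ≤ 1 - Real.binEntropy ε / Real.log 2 :=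
  mutualInfo_full (fun _ _ a b c d => KEY_all a b c d) f h0 h1

end Vale.Agent.Results.P322.A0_full
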