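import Vale.Agent.Lib.P322.Main
import Vale.Agent.Lib.P322.MI

open CK322

namespace Vale.Agent.Results.P322.A_balanced

theorem signOf_sum_eq_zero {n : ℕ} (f : (Fin n → Bool) → Bool)
    (hf : (Finset.univ.filter fun x => f x = true).card
      = (Finset.univ.filter fun x => f x = false).card) :
    ∑ x, signOf f x = 0 := by
  have h1 : ∑ x, signOf f x
      = ∑ x, ((if f x = true then (1 : ℝ) else 0) - (if f x = false then (1 : ℝ) else 0)) := by
    apply Finset.sum_congr rfl
    intro x _
    unfold signOf sgn
    cases f x <;> simp
  rw [h1, Finset.sum_sub_distrib, Finset.sum_boole, Finset.sum_boole, hf, sub_self]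

/-- The Courtade-Kumar inequality for balanced Boolean functions, for all noise:
for uniform `X` on the cube and `Y` the output of `n` independent binary symmetric channels with
crossover probability `ε`, a balanced `f` has `I(f(X);Y) ≤ 1 - h₂(ε)` (in bits). -/
theorem result {n : ℕ} (f : (Fin n → Bool) → Bool)
    (hf : (Finset.univ.filter fun x => f x = true).card
      = (Finset.univ.filter fun x => f x = false).card)
    {ε : ℝ} (h0 : 0 ≤ ε) (h1 : ε ≤ 1 / 2) :
    mutualInfoBits f ε ≤ 1 - Real.binEntropy ε / Real.log 2 := by
  have hb := signOf_sum_eq_zero f hf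
  refine mutualInfo_le_of_noise f hb h0 h1 ?_
  exact noise_balanced_phi (signOf f) (signOf_cases f) (avg_signOf f hb) (by linarith) (by linarith)

end Vale.Agent.Results.P322.A_balanced
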