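import Vale.Agent.Lib.P322.General

open CK322

namespace Vale.Agent.Results.P322.B_low_noise

/-- The Courtade-Kumar inequality for all Boolean functions at low noise: for uniform `X` on the
cube and `Y` the output of `n` independent binary symmetric channels with crossover `ε`, every
`f` (balanced or not) has `I(f(X);Y) ≤ 1 - h₂(ε)` (in bits) as soon as `h₂(ε) ≤ 103/200`. -/
theorem result {n : ℕ} (f : (Fin n → Bool) → Bool)
    {ε : ℝ} (h0 : 0 ≤ ε) (h1 : ε ≤ 1 / 2) (hε : Real.binEntropy ε / Real.log 2 ≤ 103 / 200) :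
    mutualInfoBits f ε ≤ 1 - Real.binEntropy ε / Real.log 2 :=
  mutualInfo_le_low_noise f h0 h1 hε

end Vale.Agent.Results.P322.B_low_noise
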